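import Vale.Agent.P241.H40.Claim2
import Vale.Agent.P241.H175.SharpNull

/-!
# P241, block E3: `SharpStar`

* `sharpOpenCone X : OpenCone X (X^G) X♯`.
* `N_of_NN` : an honest null-homotopy gives nullity.
* `ToStars β` : there is a pointed `G`-map from `β` to a product of stars of `G / H`, `H ≠ G`.
  This class is closed under products and contains the stars.
* `sharpStar : SharpStar V Hyp` if `Hyp W X` implies `GFC W X`.
-/

open CategoryTheory MonoidalCategory Filter Topology OnePoint

open Vale.Agent.P251.G Vale.Agent.P251.G.LC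
open Vale.Agent.P251.St (toLC)
open Vale.Agent.P241.St Vale.Agent.P241.H808 Vale.Agent.P241.H40
open Vale.Agent.P241.H175 (sharp sharpSet isClosed_sharpSet NN Fixd Ray)

noncomputable section

namespace Vale.Agent.P241.H56

variable {G : Type} [Group G]

/-! ### `X♯` as an open cone -/

section cone

variable (X : GSpace G)

/-- the fixed points with the trivial action -/
abbrev fixT : GSpace G := GSpace.triv G (X.fix ⊤)

/-- a point of `X♯` -/
def shp (x : X.carrier) (t : NNReal) (h : t = 0 ∨ ∀ g : G, g • x = x) : (sharp X).carrier :=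
  ⟨(x, t), h⟩

/-- the point of `X × [0, ∞)` -/
def shv (z : (sharp X).carrier) : X.carrier × NNReal := z.1

theorem isClosedEmbedding_shv : IsClosedEmbedding (shv X) :=
  (isClosed_sharpSet X).isClosedEmbedding_subtypeVal

theorem shv_injective : Function.Injective (shv X) := Subtype.val_injective

/-- the inclusion of the fixed points -/
def fixVal (x : (fixT X).carrier) : X.carrier :=
  Subtype.val (p := fun y => y ∈ MulAction.fixedPoints (⊤ : Subgroup G) X.carrier) x

theorem isClosedEmbedding_fixVal : IsClosedEmbedding (fixVal X) :=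
  (X.isClosed_fixedPoints ⊤).isClosedEmbedding_subtypeVal

theorem smul_fixVal (g : G) (x : (fixT X).carrier) : g • fixVal X x = fixVal X x :=
  (Subtype.property (p := fun y => y ∈ MulAction.fixedPoints (⊤ : Subgroup G) X.carrier) x)
    ⟨g, Subgroup.mem_top g⟩

theorem exists_fixVal {x : X.carrier} (h : ∀ g : G, g • x = x) : ∃ z, fixVal X z = x :=
  ⟨(⟨x, fun g => h g⟩ : MulAction.fixedPoints (⊤ : Subgroup G) X.carrier), rfl⟩

theorem isClosedEmbedding_coneCoord : IsClosedEmbedding
    (fun z : ((hh G).B.prod (fixT X)).carrier =>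
      shp X (fixVal X (p2 z)) (rq (p1 z)) (Or.inr fun g => smul_fixVal X g (p2 z))) := by
  rw [← (isClosedEmbedding_shv X).of_comp_iff]
  have h : IsClosedEmbedding (fun z : NNReal × (fixT X).carrier => (fixVal X z.2, z.1)) :=
    (Homeomorph.prodComm NNReal X.carrier).isClosedEmbedding.comp
      (IsClosedEmbedding.id.prodMap (isClosedEmbedding_fixVal X))
  exact h

theorem isClosedEmbedding_base : IsClosedEmbedding
    (fun x : X.carrier => shp X x 0 (Or.inl rfl)) := by
  rw [← (isClosedEmbedding_shv X).of_comp_iff]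
  exact Function.LeftInverse.isClosedEmbedding (f := fun z : X.carrier × NNReal => z.1)
    (g := fun x : X.carrier => (x, (0 : NNReal))) (fun _ => rfl) continuous_fst
    (continuous_id.prodMk continuous_const)

/-- `X♯` is the open cone of the inclusion of the fixed points. -/
def sharpOpenCone : OpenCone X (fixT X) (sharp X) where
  ι := PM.ofProper (fixVal X) (isClosedEmbedding_fixVal X).continuous
    (isClosedEmbedding_fixVal X).tendsto_cocompact fun g x => (smul_fixVal X g x).symm
  fι := fixVal X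
  at_ι _ := rfl
  i := PM.ofProper _ (isClosedEmbedding_base X).continuous
    (isClosedEmbedding_base X).tendsto_cocompact fun _ _ => rfl
  fi := _
  at_i _ := rfl
  j := PM.ofProper _ (isClosedEmbedding_coneCoord X).continuous
    (isClosedEmbedding_coneCoord X).tendsto_cocompact fun g z => by
      apply shv_injective X
      exact Prod.ext (smul_fixVal X g (p2 z)).symm rfl
  fj r z := shp X (fixVal X z) r (Or.inr fun g => smul_fixVal X g z)
  at_j _ _ := rfl
  inj_i h := congrArg (fun z => (shv X z).1) h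
  inj_j h := Or.inr ⟨congrArg (fun z => (shv X z).2) h,
    (isClosedEmbedding_fixVal X).injective (congrArg (fun z => (shv X z).1) h)⟩
  glue _ := rfl
  meet h := (congrArg (fun z => (shv X z).2) h).symm
  surj y := by
    obtain ⟨⟨x, t⟩, h⟩ := y
    rcases h with h | h
    · refine Or.inl ⟨x, ?_⟩
      apply shv_injective X
      exact Prod.ext rfl h.symm
    · obtain ⟨z, hz⟩ := exists_fixVal X h
      refine Or.inr ⟨t, z, ?_⟩
      apply shv_injective X
      exact Prod.ext hz rfl

end cone

/-! ### honest null-homotopies -/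

/-- the map `y ↦ (b, y)` -/
def injPM (β : PB G) (Y : GSpace G) : PM Y (β.B.prod Y) where
  hom := H175.inj β.B β.b Y
  eqv g y := H175.eqv_inj (Y := Y) β.fix g (y : OnePoint Y.carrier)

/-- an honest null-homotopy gives nullity -/
theorem N_of_NN (V : TClass) (β : PB G) {Y : GSpace G} (h : NN β.B β.b Y) :
    N V (pt G).B β Y := by
  obtain ⟨k, hk⟩ := (injPM β Y).null_of_htpy h
  let s : PM ((pt G).B.prod ((hh G).B.prod (Y.prod (tr G (𝟙_ LC)))))
      ((Y.prod (hh G).B).prod (tr G (𝟙_ LC))) :=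
    PM.emb (fun z => pr (pr (p1 (p2 (p2 z))) (p1 (p2 z))) (p2 (p2 (p2 z))))
      (fun w => pr (pt G).b (pr (p2 (p1 w)) (pr (p1 (p1 w)) (p2 w))))
      (by fun_prop) (continuous_pr continuous_const (by fun_prop)) (fun _ => rfl) (fun _ _ => rfl)
  let s' : PM ((β.B.prod Y).prod (tr G (𝟙_ LC))) (β.B.prod (Y.prod (tr G (𝟙_ LC)))) :=
    PM.emb (fun z => pr (p1 (p1 z)) (pr (p2 (p1 z)) (p2 z)))
      (fun w => pr (pr (p1 w) (p1 (p2 w))) (p2 (p2 w)))
      (by fun_prop) (by fun_prop) (fun _ => rfl) (fun _ _ => rfl)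
  refine ⟨𝟙_ LC, 𝟙_ LC, 𝟙 _, V.one, s.comp ((k.prod (PM.id _)).comp s'), ?_⟩
  intro e y a
  change s'.at' ((k.prod (PM.id _)).at' (sm (OnePoint.some (pr y (hh G).b)) (OnePoint.some a))) = _
  rw [PM.at_prod, hk]
  rfl

/-! ### products of stars -/

theorem Le_prod_pt (β : PB G) : Le β (β.prod (pt G)) :=
  ⟨PM.emb (X := β.B) (Y := β.B.prod (pt G).B) (fun x => pr x (pt G).b) p1
    (continuous_pr continuous_id continuous_const) (by fun_prop) (fun _ => rfl) (fun _ _ => rfl),
    rfl⟩

section

variable [Finite G]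

/-- there is a pointed `G`-map to a product of stars of `G / H`, `H ≠ G` -/
def ToStars (β : PB G) : Prop :=
  ∃ l : List (Subgroup G), (∀ H ∈ l, H ≠ ⊤) ∧ Le β (PB.list (l.map starQ))

theorem ToStars.pt : ToStars (H808.pt G) := ⟨[], by simp, Le.refl _⟩

theorem ToStars.star {H : Subgroup G} (hH : H ≠ ⊤) : ToStars (starQ H) :=
  ⟨[H], fun K hK => by rwa [List.mem_singleton.1 hK], Le_prod_pt _⟩

theorem ToStars.prod {β γ : PB G} (h : ToStars β) (h' : ToStars γ) : ToStars (β.prod γ) := by
  obtain ⟨l, hl, h⟩ := h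
  obtain ⟨l', hl', h'⟩ := h'
  refine ⟨l ++ l', ?_, ?_⟩
  · intro H hH
    rcases List.mem_append.1 hH with h | h
    exacts [hl H h, hl' H h]
  · rw [List.map_append]
    exact (h.prod h').trans (Le_list_append _ _)

end

/-! ### rays -/

theorem smul_ray {I : Type} [MulAction G I] (g : G) (i : I) (t : NNReal) :
    g • H733.Star.ray i t = H733.Star.ray (g • i) t := by
  apply H733.Star.ext
  intro j
  rw [H733.Star.smul_apply, H733.Star.ray_apply, H733.Star.ray_apply]
  by_cases h : g⁻¹ • j = i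
  · rw [if_pos h, if_pos (inv_smul_eq_iff.mp h)]
  · rw [if_neg h, if_neg fun h' => h (inv_smul_eq_iff.mpr h')]

/-- the ray of the point `x` of `G / H` -/
def rayQ [Finite G] (H : Subgroup G) (x : G ⧸ H) (t : NNReal) : (starQ H).B.carrier :=
  fun _ : Fin 1 => H733.Star.ray x t

theorem smul_rayQ [Finite G] (H : Subgroup G) (g : G) (x : G ⧸ H) (t : NNReal) :
    g • rayQ H x t = rayQ H (g • x) t :=
  funext fun _ => smul_ray g x t

theorem rayQ_zero [Finite G] (H : Subgroup G) (x : G ⧸ H) : rayQ H x 0 = (starQ H).b :=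
  funext fun _ => H733.Star.ray_zero x

theorem isClosedEmbedding_rayQ [Finite G] (H : Subgroup G) (x : G ⧸ H) :
    IsClosedEmbedding (rayQ H x) :=
  (Homeomorph.funUnique (Fin 1) (H733.Star (G ⧸ H))).symm.isClosedEmbedding.comp
    (H733.Star.isClosedEmbedding_ray x)

theorem smul_rayQ_one [Finite G] (H : Subgroup G) {g : G} (hg : g ∈ H) (t : NNReal) :
    g • rayQ H ((1 : G) : G ⧸ H) t = rayQ H ((1 : G) : G ⧸ H) t := by
  rw [smul_rayQ]
  congr 1
  change ((g * 1 : G) : G ⧸ H) = ((1 : G) : G ⧸ H)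
  rw [mul_one, QuotientGroup.eq, mul_one]
  exact H.inv_mem hg

theorem ray_starQ [Finite G] (H : Subgroup G) : Ray H (starQ H).B (starQ H).b := by
  refine ⟨ofClosed (X := HH) (Y := toLC (starQ H).B.und) (rayQ H ((1 : G) : G ⧸ H))
    (isClosedEmbedding_rayQ H _), ?_, ?_⟩
  · exact congrArg (OnePoint.some (X := (starQ H).B.carrier)) (rayQ_zero H _)
  · intro h hh s
    induction s using OnePoint.rec with
    | infty => rfl
    | coe s => exact congrArg (OnePoint.some (X := (starQ H).B.carrier)) (smul_rayQ_one H hh s)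

/-! ### the theorem -/

/-- `X♯` is null for a product of stars of `G / H`, `H ≠ G`. -/
theorem exists_N_sharp [Finite G] (V : TClass) {X : GSpace G} (hX : GFC G X) :
    ∃ l : List (Subgroup G), (∀ H ∈ l, H ≠ ⊤) ∧
      N V (pt G).B (PB.list (l.map starQ)) (sharp X) := by
  obtain ⟨B, b, ⟨hb, l, hl, hle⟩, hN⟩ := H175.nn_sharp
    (fun B b => ∃ hb : ∀ g : G, g • b = b, ToStars ⟨B, b, hb⟩)
    (fun B b h => h.1)
    (fun B B' b b' h h' => ⟨fun g => Prod.ext (h.1 g) (h'.1 g), h.2.prod h'.2⟩)
    ⟨_, _, (pt G).fix, ToStars.pt⟩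
    (fun H hH => ⟨_, _, ⟨(starQ H).fix, ToStars.star hH⟩, ray_starQ H⟩) hX
  exact ⟨l, hl, Fact.mapLe (Le.refl _) hle (N_of_NN V ⟨B, b, hb⟩ hN)⟩

/-- **`SharpStar`** -/
theorem sharpStar (V : TClass) (Hyp : ∀ (W : Type) [Group W] [Finite W], GSpace W → Prop)
    (hH : ∀ (W : Type) [Group W] [Finite W] (X : GSpace W), Hyp W X → GFC W X) :
    SharpStar V Hyp :=
  fun W _ _ _ X hX => ⟨sharp X, ⟨sharpOpenCone X⟩, exists_N_sharp V (hH W X hX)⟩

end Vale.Agent.P241.H56
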