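import Vale.Agent.P241.H585.Api
import Vale.Agent.P241.H486.Fix
import Vale.Agent.P251.G.Pushout

/-!
# P241, block E3: open cones of `G`-spaces

* `ocone X hZ hG : GSpace G` : `{(x, t) ∈ X × [0, ∞) | t = 0 ∨ x ∈ Z}` for a closed invariant set
  `Z`, with the inclusion `oι : L (ocone X) ⟶ L X ⊗ HH`.
* `sharp X` : the case `Z = ` the fixed points of `G`; `sharpMap f` functoriality.
* `coneG i` : the mapping cone of a closed embedding `i`, `Z = ` the image of `i`.
-/

open CategoryTheory MonoidalCategory Limits OnePoint Topology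
open Vale.Agent.P251.G Vale.Agent.P251.G.LC Vale.Agent.P251.St Vale.Agent.P241.St
open Vale.Agent.P241.Geo

noncomputable section

namespace Vale.Agent.P241.H56

variable {G : Type} [Group G]

/-! ### points -/

theorem smash_cases {X Y : Type} (p : OnePoint (X × Y)) :
    p = ∞ ∨ ∃ (x : X) (y : Y), p = smash (x : OnePoint X) (y : OnePoint Y) := by
  induction p using OnePoint.rec with
  | infty => exact Or.inl rfl
  | coe p => exact Or.inr ⟨p.1, p.2, rfl⟩

/-! ### open cones -/

section ocone

variable (X : GSpace G) {Z : Set X.carrier}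

/-- `{(x, t) | t = 0 ∨ x ∈ Z}` -/
def osub (Z : Set X.carrier) : Set (X.carrier × NNReal) := {p | p.2 = 0 ∨ p.1 ∈ Z}

theorem isClosed_osub (hZ : IsClosed Z) : IsClosed (osub X Z) :=
  (isClosed_eq continuous_snd continuous_const).union (hZ.preimage continuous_fst)

variable (hZ : IsClosed Z) (hG : ∀ (g : G) (x : X.carrier), x ∈ Z → g • x ∈ Z)

/-- The open cone `{(x, t) ∈ X × [0, ∞) | t = 0 ∨ x ∈ Z}`. -/
def ocone : GSpace G :=
  H486.gsub (X.prod (GSpace.triv G Hh)) (osub X Z) (isClosed_osub X hZ) (by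
    rintro g ⟨x, t⟩ (h | h)
    · exact Or.inl h
    · exact Or.inr (hG g x h))

/-- the inclusion of the open cone -/
def oι : L (ocone X hZ hG) ⟶ L X ⊗ LC.HH := subι (Y := L X ⊗ LC.HH) (isClosed_osub X hZ)

theorem injective_oι : Function.Injective (app (oι X hZ hG)) :=
  injective_subι (Y := L X ⊗ LC.HH) (isClosed_osub X hZ)

theorem app_oι_coe (p : X.carrier × NNReal) (hp : p ∈ osub X Z) :
    app (oι X hZ hG) (OnePoint.some (X := (ocone X hZ hG).carrier) ⟨p, hp⟩) =
      smash (p.1 : OnePoint X.carrier) (p.2 : OnePoint NNReal) := rfl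

theorem smash_mem_range_oι {x : OnePoint X.carrier} {t : NNReal}
    (h : t = 0 ∨ ∀ y : X.carrier, x = y → y ∈ Z) :
    smash x (t : OnePoint NNReal) ∈ Set.range (app (oι X hZ hG)) := by
  induction x using OnePoint.rec with
  | infty => exact ⟨∞, app_infty _⟩
  | coe x =>
    exact ⟨OnePoint.some (X := (ocone X hZ hG).carrier) ⟨(x, t), h.imp id fun h => h x rfl⟩, rfl⟩

theorem oι_cases (p : OnePoint (ocone X hZ hG).carrier) : p = ∞ ∨ ∃ (x : X.carrier) (t : NNReal),
    (t = 0 ∨ x ∈ Z) ∧ app (oι X hZ hG) p = smash (x : OnePoint X.carrier) (t : OnePoint NNReal) := by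
  induction p using OnePoint.rec with
  | infty => exact Or.inl rfl
  | coe p => exact Or.inr ⟨p.1.1, p.1.2, p.2, rfl⟩

theorem act_oι (g : G) : act (ocone X hZ hG) g ≫ oι X hZ hG = oι X hZ hG ≫ act X g ▷ LC.HH := by
  apply hom_ext
  intro p
  rfl

end ocone

/-! ### lifting to the open cone -/

section lift

variable {X : GSpace G} {Z : Set X.carrier} (hZ : IsClosed Z)
  (hG : ∀ (g : G) (x : X.carrier), x ∈ Z → g • x ∈ Z)

/-- the lift of a map into `X × [0, ∞)` -/
def olift {W : LC} (f : W ⟶ L X ⊗ LC.HH) (h : ∀ w, app f w ∈ Set.range (app (oι X hZ hG))) :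
    W ⟶ L (ocone X hZ hG) :=
  factor (oι X hZ hG) (injective_oι X hZ hG) f h

@[reassoc (attr := simp)]
theorem olift_ι {W : LC} (f : W ⟶ L X ⊗ LC.HH) (h : ∀ w, app f w ∈ Set.range (app (oι X hZ hG))) :
    olift hZ hG f h ≫ oι X hZ hG = f := factor_comp _ _ _ _

instance mono_oι : Mono (oι X hZ hG) := mono_of_injective (injective_oι X hZ hG)

/-- the base `X ⟶ ocone X`, `x ↦ (x, 0)` -/
def obase : L X ⟶ L (ocone X hZ hG) :=
  olift hZ hG (coneBase (L X)) fun x => by
    rw [app_coneBase]
    exact smash_mem_range_oι X hZ hG (Or.inl rfl)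

@[reassoc (attr := simp)]
theorem obase_ι : obase hZ hG ≫ oι X hZ hG = coneBase (L X) := olift_ι _ _ _ _

theorem injective_obase : Function.Injective (app (obase hZ hG)) := by
  intro x y h
  apply injective_coneBase (L X)
  rw [← obase_ι hZ hG, app_comp, app_comp, h]

theorem eqv_obase : Eqv (obase hZ hG) := by
  intro g
  rw [← cancel_mono (oι X hZ hG), Category.assoc, Category.assoc, act_oι, obase_ι, obase_ι_assoc,
    coneBase_naturality]

end lift

/-! ### the fixed point cone -/

section sharp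

/-- the set of fixed points -/
def fixSet (X : GSpace G) : Set X.carrier := {x | ∀ g : G, g • x = x}

theorem isClosed_fixSet (X : GSpace G) : IsClosed (fixSet X) := by
  have h : fixSet X = ⋂ g : G, {x : X.carrier | g • x = x} := by
    ext x
    simp only [fixSet, Set.mem_ofPred_eq, Set.mem_iInter]
  rw [h]
  exact isClosed_iInter fun g => isClosed_eq (continuous_const_smul g) continuous_id

theorem smul_mem_fixSet (X : GSpace G) (g : G) (x : X.carrier) (h : x ∈ fixSet X) :
    g • x ∈ fixSet X := by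
  rw [h g]
  exact h

/-- `X♯ = {(x, t) ∈ X × [0, ∞) | t = 0 ∨ x fixed}` -/
def sharp (X : GSpace G) : GSpace G := ocone X (isClosed_fixSet X) (smul_mem_fixSet X)

/-- the inclusion of `X♯` -/
def sι (X : GSpace G) : L (sharp X) ⟶ L X ⊗ LC.HH := oι X (isClosed_fixSet X) (smul_mem_fixSet X)

theorem injective_sι (X : GSpace G) : Function.Injective (app (sι X)) := injective_oι _ _ _

instance mono_sι (X : GSpace G) : Mono (sι X) := mono_of_injective (injective_sι X)

theorem act_sι (X : GSpace G) (g : G) : act (sharp X) g ≫ sι X = sι X ≫ act X g ▷ LC.HH :=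
  act_oι _ _ _ _

theorem mem_range_sι (X : GSpace G) (x : OnePoint X.carrier) (t : NNReal)
    (h : t = 0 ∨ ∀ g : G, X.smul g x = x) :
    smash x (t : OnePoint NNReal) ∈ Set.range (app (sι X)) := by
  apply smash_mem_range_oι
  refine h.imp id fun h y hy g => ?_
  subst hy
  exact OnePoint.coe_injective (h g)

theorem sι_cases (X : GSpace G) (p : OnePoint (sharp X).carrier) :
    p = ∞ ∨ ∃ (x : X.carrier) (t : NNReal),
      (t = 0 ∨ ∀ g : G, X.smul g (x : OnePoint X.carrier) = (x : OnePoint X.carrier)) ∧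
        app (sι X) p = smash (x : OnePoint X.carrier) (t : OnePoint NNReal) := by
  rcases oι_cases X (isClosed_fixSet X) (smul_mem_fixSet X) p with h | ⟨x, t, h, hp⟩
  · exact Or.inl h
  · exact Or.inr ⟨x, t, h.imp id fun h g => congrArg (OnePoint.some (X := X.carrier)) (h g), hp⟩

/-- the inclusion `X ⟶ X♯` -/
def sbase (X : GSpace G) : L X ⟶ L (sharp X) := obase _ _

@[reassoc (attr := simp)]
theorem sbase_ι (X : GSpace G) : sbase X ≫ sι X = coneBase (L X) := obase_ι _ _

theorem eqv_sbase (X : GSpace G) : Eqv (sbase X) := eqv_obase _ _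

theorem mem_range_of_eqv {X Y : GSpace G} (f : L X ⟶ L Y) (hf : Eqv f)
    (p : OnePoint (sharp X).carrier) :
    app (f ▷ LC.HH) (app (sι X) p) ∈ Set.range (app (sι Y)) := by
  rcases sι_cases X p with rfl | ⟨x, t, h, hp⟩
  · rw [app_infty, app_infty]
    exact ⟨∞, app_infty _⟩
  · rw [hp, app_whiskerRight_smash]
    refine mem_range_sι Y _ t (h.imp id fun h g => ?_)
    rw [← app_act, ← app_comp, ← hf g, app_comp, app_act, h g]

/-- functoriality of `X♯` -/
def smap {X Y : GSpace G} (f : L X ⟶ L Y) (hf : Eqv f) : L (sharp X) ⟶ L (sharp Y) :=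
  factor (sι Y) (injective_sι Y) (sι X ≫ f ▷ LC.HH) (mem_range_of_eqv f hf)

@[reassoc (attr := simp)]
theorem smap_ι {X Y : GSpace G} (f : L X ⟶ L Y) (hf : Eqv f) :
    smap f hf ≫ sι Y = sι X ≫ f ▷ LC.HH := factor_comp _ _ _ _

theorem eqv_smap {X Y : GSpace G} (f : L X ⟶ L Y) (hf : Eqv f) : Eqv (smap f hf) := by
  intro g
  rw [← cancel_mono (sι Y), Category.assoc, Category.assoc, act_sι, smap_ι, smap_ι_assoc,
    ← Category.assoc, act_sι, Category.assoc, ← MonoidalCategory.comp_whiskerRight, hf g,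
    MonoidalCategory.comp_whiskerRight]

end sharp

/-! ### the mapping cone of an embedding -/

section cone

variable {A B : GSpace G} (i : L A ⟶ L B)

/-- the image of `i` -/
def imSet : Set B.carrier := {b | (b : OnePoint B.carrier) ∈ Set.range (app i)}

theorem isClosed_imSet : IsClosed (imSet i) :=
  (isClosed_range_app i).preimage OnePoint.continuous_coe

variable {i} in
theorem smul_mem_imSet (hi : Eqv i) (g : G) (b : B.carrier) (h : b ∈ imSet i) :
    g • b ∈ imSet i := by
  obtain ⟨a, ha⟩ := h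
  refine ⟨app (act A g) a, ?_⟩
  rw [← app_comp, hi g, app_comp, ha]
  rfl

variable {i} (hi : Eqv i)

/-- the mapping cone of `i` -/
def coneG : GSpace G := ocone B (isClosed_imSet i) (smul_mem_imSet hi)

/-- the inclusion into `B × [0, ∞)` -/
def cι : L (coneG hi) ⟶ L B ⊗ LC.HH := oι B (isClosed_imSet i) (smul_mem_imSet hi)

theorem injective_cι : Function.Injective (app (cι hi)) := injective_oι _ _ _

instance mono_cι : Mono (cι hi) := mono_of_injective (injective_cι hi)

theorem act_cι (g : G) : act (coneG hi) g ≫ cι hi = cι hi ≫ act B g ▷ LC.HH := act_oι _ _ _ _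

/-- the inclusion of `B` -/
def kB : L B ⟶ L (coneG hi) := obase _ _

@[reassoc (attr := simp)]
theorem kB_ι : kB hi ≫ cι hi = coneBase (L B) := obase_ι _ _

theorem injective_kB : Function.Injective (app (kB hi)) := injective_obase _ _

theorem eqv_kB : Eqv (kB hi) := eqv_obase _ _

theorem mem_range_cι (a : OnePoint A.carrier) (t : NNReal) :
    smash (app i a) (t : OnePoint NNReal) ∈ Set.range (app (cι hi)) := by
  apply smash_mem_range_oι
  exact Or.inr fun y hy => ⟨a, hy⟩

/-- the map from the cone of `A` -/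
def kA : L A ⊗ LC.HH ⟶ L (coneG hi) :=
  factor (cι hi) (injective_cι hi) (i ▷ LC.HH) fun p => by
    rcases smash_cases p with rfl | ⟨a, t, rfl⟩
    · exact ⟨∞, (app_infty _).trans (app_infty _).symm⟩
    · rw [app_whiskerRight_smash]
      exact mem_range_cι hi _ t

@[reassoc (attr := simp)]
theorem kA_ι : kA hi ≫ cι hi = i ▷ LC.HH := factor_comp _ _ _ _

theorem injective_kA (hinj : Function.Injective (app i)) : Function.Injective (app (kA hi)) := by
  intro x y h
  apply injective_whiskerRight (X := LC.HH) hinj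
  rw [← kA_ι hi, app_comp, app_comp, h]

theorem act_kA (g : G) : act A g ▷ LC.HH ≫ kA hi = kA hi ≫ act (coneG hi) g := by
  rw [← cancel_mono (cι hi), Category.assoc, Category.assoc, act_cι, kA_ι, kA_ι_assoc,
    ← MonoidalCategory.comp_whiskerRight, ← MonoidalCategory.comp_whiskerRight, hi g]

@[reassoc]
theorem base_kA : coneBase (L A) ≫ kA hi = i ≫ kB hi := by
  rw [← cancel_mono (cι hi), Category.assoc, Category.assoc, kA_ι, kB_ι, coneBase_naturality]

/-- `B` and the cone of `A` cover the mapping cone -/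
theorem cone_cover (p : OnePoint (coneG hi).carrier) :
    (∃ b, app (kB hi) b = p) ∨ ∃ x, app (kA hi) x = p := by
  rcases oι_cases B (isClosed_imSet i) (smul_mem_imSet hi) p with rfl | ⟨b, t, h, hp⟩
  · exact Or.inl ⟨∞, app_infty _⟩
  · rcases h with rfl | ⟨a, ha⟩
    · refine Or.inl ⟨b, ?_⟩
      apply injective_cι hi
      rw [← app_comp, kB_ι, app_coneBase]
      exact hp.symm
    · refine Or.inr ⟨smash a (t : OnePoint NNReal), ?_⟩
      apply injective_cι hi
      rw [← app_comp, kA_ι, app_whiskerRight_smash, ha]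
      exact hp.symm

theorem kB_eq_kA {b : OnePoint B.carrier} {a : OnePoint A.carrier} {t : NNReal}
    (h : app (kB hi) b = app (kA hi) (smash a (t : OnePoint NNReal))) :
    b = app i a ∧ (b = ∞ ∨ t = 0) := by
  have h1 : smash b ((0 : NNReal) : OnePoint NNReal) = smash (app i a) (t : OnePoint NNReal) := by
    refine (app_coneBase (L B) b).symm.trans ?_
    rw [← kB_ι hi, app_comp, h, ← app_comp, kA_ι, app_whiskerRight_smash]
  obtain ⟨h2, h3⟩ := smash_coe_eq_iff.mp h1
  exact ⟨h2, h3.imp id fun h => h.symm⟩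

end cone

/-! ### the mapping cone of a cofibration and the quotient -/

/-- `II ⟶ HH`, `s ↦ s / (1 - s)`, `1 ↦ ∞` -/
def esc : II ⟶ LC.HH :=
  ofCompact (X := II) (Y := II) unitInterval.symm unitInterval.continuous_symm ≫ coneMap'

theorem app_esc_zero : app esc ((0 : unitInterval) : OnePoint unitInterval) =
    ((0 : NNReal) : OnePoint NNReal) := by
  have h : app esc ((0 : unitInterval) : OnePoint unitInterval) =
      app coneMap' ((unitInterval.symm 0 : unitInterval) : OnePoint unitInterval) := rfl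
  rw [h, unitInterval.symm_zero]
  exact app_coneMap_one

theorem app_esc_one : app esc ((1 : unitInterval) : OnePoint unitInterval) = ∞ := by
  have h : app esc ((1 : unitInterval) : OnePoint unitInterval) =
      app coneMap' ((unitInterval.symm 1 : unitInterval) : OnePoint unitInterval) := rfl
  rw [h, unitInterval.symm_one]
  exact app_coneMap_zero

theorem tendsto_add : Filter.Tendsto (fun p : NNReal × NNReal => p.1 + p.2)
    (Filter.cocompact (NNReal × NNReal)) (Filter.cocompact NNReal) := by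
  intro s hs
  obtain ⟨K, hK, hKs⟩ := Filter.mem_cocompact.mp hs
  obtain ⟨M, hM⟩ := hK.bddAbove
  rw [Filter.mem_map]
  refine Filter.mem_cocompact.mpr ⟨Set.Icc 0 M ×ˢ Set.Icc 0 M, isCompact_Icc.prod isCompact_Icc, ?_⟩
  rintro ⟨x, y⟩ hp
  apply hKs
  intro hxy
  apply hp
  have h : x + y ≤ M := hM hxy
  exact ⟨⟨x.2, le_self_add.trans h⟩, ⟨y.2, le_add_self.trans h⟩⟩

/-- `HH ⊗ HH ⟶ HH`, `(s, t) ↦ s + t` -/
def addHH : LC.HH ⊗ LC.HH ⟶ LC.HH :=
  ofProper (X := LC.HH ⊗ LC.HH) (Y := LC.HH) (fun p : NNReal × NNReal => p.1 + p.2)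
    (continuous_fst.add continuous_snd) tendsto_add

theorem app_addHH (s t : NNReal) :
    app addHH (smash (s : OnePoint NNReal) (t : OnePoint NNReal)) =
      ((s + t : NNReal) : OnePoint NNReal) := rfl

theorem app_addHH_zero (s : OnePoint NNReal) :
    app addHH (smash s ((0 : NNReal) : OnePoint NNReal)) = s := by
  induction s using OnePoint.rec with
  | infty => exact app_infty addHH
  | coe s => rw [app_addHH, add_zero]

theorem app_zero_addHH (s : OnePoint NNReal) :
    app addHH (smash ((0 : NNReal) : OnePoint NNReal) s) = s := by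
  induction s using OnePoint.rec with
  | infty => rw [smash_infty_right]; exact app_infty addHH
  | coe s => rw [app_addHH, zero_add]

section retract

variable {A B C : GSpace G} {i : L A ⟶ L B} {q : L B ⟶ L C}

/-- A map out of the mapping cone. -/
theorem exists_coneDesc (hi : Eqv i) (hinj : Function.Injective (app i)) {Z : LC} (f : L B ⟶ Z)
    (h : L A ⊗ LC.HH ⟶ Z) (w : coneBase (L A) ≫ h = i ≫ f) :
    ∃ k : L (coneG hi) ⟶ Z, kB hi ≫ k = f ∧ kA hi ≫ k = h := by
  refine exists_desc (kB hi) (kA hi) (cone_cover hi) f h ?_ ?_ ?_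
  · intro x x' hx
    rw [injective_kB hi hx]
  · intro x x' hx
    rw [injective_kA hi hinj hx]
  · intro b x hx
    obtain ⟨a, t, rfl⟩ := smash_coe_surjective (X := A.carrier) (Y := NNReal) x
    obtain ⟨rfl, h2⟩ := kB_eq_kA hi hx
    rcases h2 with h2 | rfl
    · have h3 : a = ∞ := hinj (h2.trans (app_infty i).symm)
      subst h3
      rw [app_infty, app_infty]
      exact (app_infty h).symm
    · have h3 := congrArg (fun m : L A ⟶ Z => app m a) w
      simp only [app_comp] at h3
      rw [app_coneBase] at h3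
      exact h3.symm

theorem cone_hom_ext (hi : Eqv i) {Z : LC} {f g : L (coneG hi) ⟶ Z} (h1 : kB hi ≫ f = kB hi ≫ g)
    (h2 : kA hi ≫ f = kA hi ≫ g) : f = g := by
  apply app_ext
  intro p
  rcases cone_cover hi p with ⟨b, rfl⟩ | ⟨x, rfl⟩
  · rw [← app_comp, h1, app_comp]
  · rw [← app_comp, h2, app_comp]

end retract

end Vale.Agent.P241.H56
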